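import Vale.Agent.P167.H366.Quad
import Vale.Agent.P167.H262.WstFK

/-!
# P167: mod 2 duality in a rectangle

`stokes`: if `(f (pa e) + f (pb e)) (f (da e) + f (db e)) = 0` for every square of a rectangle then the
sum of `f u * f v` over the sides `u v` of the boundary of the rectangle is `0`.

`exists_chain`: a connection by squares of `S` gives a chain of squares of `S` with boundary the two
end points; `NN`: the potential (row sums) of a closed chain, constant on the dual clusters.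
-/

set_option autoImplicit false
set_option linter.unusedSectionVars false

namespace Vale.Agent.P167.H640.Pl

open Finset Vale.Agent.P167.H623 Vale.Agent.P167.H92 Vale.Agent.P167.H816 Vale.Agent.P167.FK
open Vale.Agent.P167.H366
open Vale.Agent.P167.H262 (Rsq mem_Rsq)

theorem z2 (x : ZMod 2) : x + x = 0 := CharTwo.add_self_eq_zero x

/-! ### sums over intervals -/

theorem sum_Ico_succ (F : ℤ → ZMod 2) {p q : ℤ} (h : p ≤ q) :
    ∑ x ∈ Ico p (q + 1), F x = ∑ x ∈ Ico p q, F x + F q := by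
  have h1 : Ico p (q + 1) = insert q (Ico p q) := by
    ext x
    simp only [mem_Ico, mem_insert]
    omega
  rw [h1, sum_insert (by simp), add_comm]

theorem sum_split (F : ℤ → ZMod 2) {p q r : ℤ} (h : p ≤ q) (h' : q ≤ r) :
    ∑ x ∈ Ico p r, F x = ∑ x ∈ Ico p q, F x + ∑ x ∈ Ico q r, F x := by
  rw [← sum_union (Ico_disjoint_Ico_consecutive p q r), Ico_union_Ico_eq_Ico h h']

theorem tel (G : ℤ → ZMod 2) {p q : ℤ} (h : p ≤ q) :
    ∑ x ∈ Ico p q, (G x + G (x + 1)) = G p + G q := by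
  obtain ⟨k, rfl⟩ : ∃ k : ℕ, q = p + k := ⟨(q - p).toNat, by omega⟩
  clear h
  induction k with
  | zero => simp [z2]
  | succ k ih =>
    rw [show p + ((k + 1 : ℕ) : ℤ) = p + (k : ℤ) + 1 by push_cast; ring,
      sum_Ico_succ _ (by omega), ih]
    linear_combination z2 (G (p + k))

theorem tel' {F G : ℤ → ZMod 2} {p q : ℤ} (h : p ≤ q)
    (hF : ∀ x, p ≤ x → x < q → F x = G x + G (x + 1)) : ∑ x ∈ Ico p q, F x = G p + G q := by
  rw [← tel G h]
  refine sum_congr rfl fun x hx => ?_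
  rw [mem_Ico] at hx
  exact hF x hx.1 hx.2

section side

variable {φ : ℤ → ZMod 2} {p q t : ℤ}

/-- The odd sites have the value `1`. -/
theorem side_o1 (h : p ≤ q) (h1 : ∀ x, p ≤ x → x ≤ q → Odd (x + t) → φ x = 1) :
    ∑ x ∈ Ico p q, φ x * φ (x + 1) =
      (if Even (p + t) then φ p else 0) + (if Even (q + t) then φ q else 0) := by
  refine tel' (G := fun x => if Even (x + t) then φ x else 0) h fun x hx hx' => ?_
  by_cases he : Even (x + t)
  · have ho : ¬ Even (x + 1 + t) := by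
      rw [Int.even_iff] at *
      omega
    simp only [if_pos he, if_neg ho]
    rw [h1 (x + 1) (by omega) (by omega) (Int.not_even_iff_odd.1 ho), mul_one, add_zero]
  · have ho : Even (x + 1 + t) := by
      rw [Int.even_iff] at *
      omega
    simp only [if_neg he, if_pos ho]
    rw [h1 x hx (by omega) (Int.not_even_iff_odd.1 he), one_mul, zero_add]

/-- The odd sites have the value `0`. -/
theorem side_o0 (h1 : ∀ x, p ≤ x → x ≤ q → Odd (x + t) → φ x = 0) :
    ∑ x ∈ Ico p q, φ x * φ (x + 1) = 0 := by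
  refine sum_eq_zero fun x hx => ?_
  rw [mem_Ico] at hx
  by_cases he : Even (x + t)
  · rw [h1 (x + 1) (by omega) (by omega) (by rw [Int.even_iff] at he; rw [Int.odd_iff]; omega),
      mul_zero]
  · rw [h1 x (by omega) (by omega) (Int.not_even_iff_odd.1 he), zero_mul]

/-- The even sites have the value `1`; both ends are even. -/
theorem side_e1 (h : p ≤ q) (hp : Even (p + t)) (hq : Even (q + t))
    (h1 : ∀ x, p ≤ x → x ≤ q → Even (x + t) → φ x = 1) :
    ∑ x ∈ Ico p q, φ x * φ (x + 1) = 0 := by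
  have h2 := side_o1 (φ := φ) (t := t + 1) h fun x hx hx' ho => h1 x hx hx' (by
    rw [Int.odd_iff] at ho
    rw [Int.even_iff]
    omega)
  rw [h2, if_neg, if_neg, add_zero]
  · rw [Int.even_iff] at *
    omega
  · rw [Int.even_iff] at *
    omega

/-- The even sites have the value `0`. -/
theorem side_e0 (h1 : ∀ x, p ≤ x → x ≤ q → Even (x + t) → φ x = 0) :
    ∑ x ∈ Ico p q, φ x * φ (x + 1) = 0 :=
  side_o0 (t := t + 1) fun x hx hx' ho => h1 x hx hx' (by
    rw [Int.odd_iff] at ho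
    rw [Int.even_iff]
    omega)

end side

/-! ### Stokes -/

/-- The two diagonals of a square. -/
theorem sq_prod (f : ℤ × ℤ → ZMod 2) (v : ℤ × ℤ) :
    (f (pa v) + f (pb v)) * (f (da v) + f (db v)) =
      f (v.1, v.2) * f (v.1 + 1, v.2) + f (v.1, v.2 + 1) * f (v.1 + 1, v.2 + 1) +
      (f (v.1, v.2) * f (v.1, v.2 + 1) + f (v.1 + 1, v.2) * f (v.1 + 1, v.2 + 1)) := by
  unfold pa pb da db
  split_ifs <;> ring

theorem stokes {f : ℤ × ℤ → ZMod 2} {a b c d : ℤ} (hab : a ≤ b) (hcd : c ≤ d)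
    (h : ∀ v ∈ Rsq a b c d, (f (pa v) + f (pb v)) * (f (da v) + f (db v)) = 0) :
    (∑ x ∈ Ico a b, f (x, c) * f (x + 1, c) + ∑ x ∈ Ico a b, f (x, d) * f (x + 1, d)) +
      (∑ y ∈ Ico c d, f (a, y) * f (a, y + 1) + ∑ y ∈ Ico c d, f (b, y) * f (b, y + 1)) = 0 := by
  have h1 : ∑ v ∈ Rsq a b c d, (f (pa v) + f (pb v)) * (f (da v) + f (db v)) = 0 :=
    sum_eq_zero h
  simp only [sq_prod] at h1
  rw [sum_add_distrib, Rsq, sum_product, sum_product_right] at h1
  rw [← sum_add_distrib, ← sum_add_distrib]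
  rw [← h1]
  congr 1
  · refine sum_congr rfl fun x _ => ?_
    exact (tel (fun y => f (x, y) * f (x + 1, y)) hcd).symm
  · refine sum_congr rfl fun y _ => ?_
    exact (tel (fun x => f (x, y) * f (x, y + 1)) hab).symm

variable {D S : Finset (ℤ × ℤ)} {A A' B B' : Set (ℤ × ℤ)}

open Classical in
/-- The indicator of the cluster of `A` on the even sites, of the dual cluster of `B` on the odd
sites. -/
noncomputable def fC (D S : Finset (ℤ × ℤ)) (A B : Set (ℤ × ℤ)) (s : ℤ × ℤ) : ZMod 2 :=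
  if Even (s.1 + s.2) then (if ∃ t ∈ A, conf pa pb S t s then 1 else 0) else
    (if ∃ t ∈ B, conf da db (D \ S) t s then 1 else 0)

theorem fC_sq {v : ℤ × ℤ} (hv : v ∈ D) :
    (fC D S A B (pa v) + fC D S A B (pb v)) * (fC D S A B (da v) + fC D S A B (db v)) = 0 := by
  classical
  by_cases h : v ∈ S
  · have h1 : (∃ t ∈ A, conf pa pb S t (pa v)) ↔ ∃ t ∈ A, conf pa pb S t (pb v) := by
      have h2 : conf pa pb S (pa v) (pb v) := cf_edge' pa pb h
      exact ⟨fun ⟨t, ht, h3⟩ => ⟨t, ht, Setoid.trans' _ h3 h2⟩,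
        fun ⟨t, ht, h3⟩ => ⟨t, ht, Setoid.trans' _ h3 (Setoid.symm' _ h2)⟩⟩
    have h2 : fC D S A B (pa v) = fC D S A B (pb v) := by
      unfold fC
      rw [if_pos (even_pa v), if_pos (even_pb v)]
      exact if_congr h1 rfl rfl
    rw [h2, z2, zero_mul]
  · have h1 : (∃ t ∈ B, conf da db (D \ S) t (da v)) ↔ ∃ t ∈ B, conf da db (D \ S) t (db v) := by
      have h2 : conf da db (D \ S) (da v) (db v) := cf_edge' da db (mem_sdiff.2 ⟨hv, h⟩)
      exact ⟨fun ⟨t, ht, h3⟩ => ⟨t, ht, Setoid.trans' _ h3 h2⟩,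
        fun ⟨t, ht, h3⟩ => ⟨t, ht, Setoid.trans' _ h3 (Setoid.symm' _ h2)⟩⟩
    have h2 : fC D S A B (da v) = fC D S A B (db v) := by
      unfold fC
      rw [if_neg (Int.not_even_iff_odd.2 (odd_da v)), if_neg (Int.not_even_iff_odd.2 (odd_db v))]
      exact if_congr h1 rfl rfl
    rw [h2, z2, mul_zero]

theorem fC_A {s : ℤ × ℤ} (hs : s ∈ A) (he : Even (s.1 + s.2)) : fC D S A B s = 1 := by
  unfold fC
  rw [if_pos he, if_pos ⟨s, hs, Setoid.refl' _ s⟩]

theorem fC_B {s : ℤ × ℤ} (hs : s ∈ B) (ho : Odd (s.1 + s.2)) : fC D S A B s = 1 := by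
  unfold fC
  rw [if_neg (Int.not_even_iff_odd.2 ho), if_pos ⟨s, hs, Setoid.refl' _ s⟩]

theorem fC_A' {s : ℤ × ℤ} (h : ¬ J S A A') (hs : s ∈ A') (he : Even (s.1 + s.2)) :
    fC D S A B s = 0 := by
  unfold fC
  rw [if_pos he, if_neg]
  rintro ⟨t, ht, h1⟩
  exact h ⟨t, ht, s, hs, h1⟩

theorem fC_B' {s : ℤ × ℤ} (h : ¬ Jd (D \ S) B B') (hs : s ∈ B') (ho : Odd (s.1 + s.2)) :
    fC D S A B s = 0 := by
  unfold fC
  rw [if_neg (Int.not_even_iff_odd.2 ho), if_neg]
  rintro ⟨t, ht, h1⟩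
  exact h ⟨t, ht, s, hs, h1⟩

/-! ### chains -/

/-- The boundary of a chain at a site. -/
def bd (ε : ℤ × ℤ → ZMod 2) (s : ℤ × ℤ) : ZMod 2 :=
  ε (s.1, s.2) + ε (s.1 - 1, s.2) + (ε (s.1, s.2 - 1) + ε (s.1 - 1, s.2 - 1))

/-- The point mass. -/
def dl (x s : ℤ × ℤ) : ZMod 2 := if s = x then 1 else 0

theorem bd_add (ε ε' : ℤ × ℤ → ZMod 2) (s : ℤ × ℤ) :
    bd (fun p => ε p + ε' p) s = bd ε s + bd ε' s := by
  unfold bd
  ring

theorem bd_dl (e s : ℤ × ℤ) (hs : Even (s.1 + s.2)) :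
    bd (dl e) s = dl (pa e) s + dl (pb e) s := by
  obtain ⟨e1, e2⟩ := e
  obtain ⟨s1, s2⟩ := s
  rw [Int.even_iff] at hs
  simp only at hs
  by_cases he : Even (e1 + e2)
  · have h1 : ¬ (s1 - 1 = e1 ∧ s2 = e2) := by rw [Int.even_iff] at he; omega
    have h2 : ¬ (s1 = e1 ∧ s2 - 1 = e2) := by rw [Int.even_iff] at he; omega
    have h3 : (s1 - 1 = e1 ∧ s2 - 1 = e2) ↔ (s1 = e1 + 1 ∧ s2 = e2 + 1) := by omega
    simp only [bd, dl, pa, pb, if_pos he, Prod.mk.injEq, if_neg h1, if_neg h2, h3]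
    ring
  · have h1 : ¬ (s1 = e1 ∧ s2 = e2) := by rw [Int.even_iff] at he; omega
    have h2 : ¬ (s1 - 1 = e1 ∧ s2 - 1 = e2) := by rw [Int.even_iff] at he; omega
    have h3 : (s1 - 1 = e1 ∧ s2 = e2) ↔ (s1 = e1 + 1 ∧ s2 = e2) := by omega
    have h4 : (s1 = e1 ∧ s2 - 1 = e2) ↔ (s1 = e1 ∧ s2 = e2 + 1) := by omega
    simp only [bd, dl, pa, pb, if_neg he, Prod.mk.injEq, if_neg h1, if_neg h2, h3, h4]
    ring

/-- A connection gives a chain. -/
theorem exists_chain {x y : ℤ × ℤ} (h : conf pa pb S x y) :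
    ∃ ε : ℤ × ℤ → ZMod 2, (∀ e, e ∉ S → ε e = 0) ∧
      ∀ s : ℤ × ℤ, Even (s.1 + s.2) → bd ε s = dl x s + dl y s := by
  let R : Setoid (ℤ × ℤ) :=
    { r := fun x y => ∃ ε : ℤ × ℤ → ZMod 2, (∀ e, e ∉ S → ε e = 0) ∧
        ∀ s : ℤ × ℤ, Even (s.1 + s.2) → bd ε s = dl x s + dl y s
      iseqv := by
        refine ⟨fun x => ⟨fun _ => 0, fun _ _ => rfl, fun s _ => ?_⟩, ?_, ?_⟩
        · rw [z2]
          simp [bd]
        · rintro x y ⟨ε, h1, h2⟩
          exact ⟨ε, h1, fun s hs => by rw [h2 s hs, add_comm]⟩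
        · rintro x y z ⟨ε, h1, h2⟩ ⟨ε', h1', h2'⟩
          refine ⟨fun p => ε p + ε' p, fun e he => ?_, fun s hs => ?_⟩
          · show ε e + ε' e = 0
            rw [h1 e he, h1' e he, add_zero]
          · rw [bd_add, h2 s hs, h2' s hs]
            linear_combination z2 (dl y s) }
  have h1 : conf pa pb S ≤ R := conf_le' fun e he => by
    refine ⟨dl e, fun e' he' => ?_, fun s hs => bd_dl e s hs⟩
    unfold dl
    rw [if_neg]
    rintro rfl
    exact he' he
  exact h1 h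

/-! ### the potential -/

/-- The row sums. -/
noncomputable def NN (L : ℤ) (ε : ℤ × ℤ → ZMod 2) (p : ℤ × ℤ) : ZMod 2 :=
  ∑ m ∈ Ico L p.1, ε (m, p.2)

section potential

variable {L : ℤ} {ε : ℤ × ℤ → ZMod 2}

theorem NN_succ (hL : ∀ m y, m < L → ε (m, y) = 0) (x y : ℤ) :
    NN L ε (x + 1, y) = NN L ε (x, y) + ε (x, y) := by
  unfold NN
  rcases lt_or_ge x L with h | h
  · rw [Ico_eq_empty (by simp only; omega), Ico_eq_empty (by simp only; omega), hL x y h]
    simp
  · exact sum_Ico_succ (fun m => ε (m, y)) h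

theorem NN_up (hL : ∀ m y, m < L → ε (m, y) = 0)
    (h : ∀ s : ℤ × ℤ, Even (s.1 + s.2) → bd ε s = 0) {x y : ℤ} (he : Even (x + y)) :
    NN L ε (x, y + 1) = NN L ε (x, y) := by
  have key : ∀ k : ℕ, ∀ x, x ≤ L + 2 * k → Even (x + y) →
      NN L ε (x, y + 1) = NN L ε (x, y) := by
    intro k
    induction k with
    | zero =>
      intro x hx _
      unfold NN
      rw [Ico_eq_empty (by simp only; push_cast at hx; omega)]
      simp
    | succ k ih =>
      intro x hx he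
      have h1 := ih (x - 2) (by push_cast at hx ⊢; omega) (by
        rw [Int.even_iff] at he ⊢
        omega)
      have h2 := h (x - 1, y + 1) (by
        simp only
        rw [Int.even_iff] at he ⊢
        omega)
      simp only [bd] at h2
      have e1 : x - 2 + 1 = x - 1 := by ring
      have e2 : x - 1 + 1 = x := by ring
      have e3 : x - 1 - 1 = x - 2 := by ring
      have e4 : y + 1 - 1 = y := by ring
      have k1 := NN_succ hL (x - 2) y
      have k2 := NN_succ hL (x - 1) y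
      have k3 := NN_succ hL (x - 2) (y + 1)
      have k4 := NN_succ hL (x - 1) (y + 1)
      rw [e1] at k1 k3
      rw [e2] at k2 k4
      rw [e3, e4] at h2
      rw [k4, k2, k3, k1, h1]
      have h5 := z2 (ε (x - 1, y))
      have h6 := z2 (ε (x - 2, y))
      linear_combination h2 - h5 - h6
  exact key (x - L).toNat x (by omega) he

/-- The potential along a dual edge. -/
theorem NN_da (hL : ∀ m y, m < L → ε (m, y) = 0)
    (h : ∀ s : ℤ × ℤ, Even (s.1 + s.2) → bd ε s = 0) (e : ℤ × ℤ) :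
    NN L ε (da e) = NN L ε (db e) + ε e := by
  obtain ⟨x, y⟩ := e
  have h1 := NN_succ hL x y
  by_cases he : Even (x + y)
  · simp only [da, db, if_pos he]
    rw [NN_up hL h he, h1]
    linear_combination - z2 (ε (x, y))
  · simp only [da, db, if_neg he]
    rw [NN_up hL h (x := x + 1) (by rw [Int.even_iff] at *; omega), h1]
    linear_combination - z2 (ε (x, y))

/-- The potential is constant on the dual clusters. -/
theorem NN_const (hL : ∀ m y, m < L → ε (m, y) = 0)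
    (h : ∀ s : ℤ × ℤ, Even (s.1 + s.2) → bd ε s = 0) {T : Finset (ℤ × ℤ)}
    (hT : ∀ e ∈ T, ε e = 0) {o o' : ℤ × ℤ} (ho : conf da db T o o') : NN L ε o = NN L ε o' := by
  let R : Setoid (ℤ × ℤ) :=
    { r := fun x y => NN L ε x = NN L ε y
      iseqv := ⟨fun _ => rfl, fun h => h.symm, fun h h' => h.trans h'⟩ }
  have h1 : conf da db T ≤ R := conf_le' fun e he => by
    show NN L ε (da e) = NN L ε (db e)
    rw [NN_da hL h e, hT e he, add_zero]
  exact h1 ho

/-- The potential is constant on a column without squares to its right. -/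
theorem NN_col (hL : ∀ m y, m < L → ε (m, y) = 0)
    (h : ∀ s : ℤ × ℤ, Even (s.1 + s.2) → bd ε s = 0) {b : ℤ} (hb : ∀ y, ε (b, y) = 0)
    (y y' : ℤ) : NN L ε (b, y) = NN L ε (b, y') := by
  have h1 : ∀ y, NN L ε (b, y + 1) = NN L ε (b, y) := by
    intro y
    by_cases he : Even (b + y)
    · exact NN_up hL h he
    · have h2 := NN_up hL h (x := b + 1) (y := y) (by rw [Int.even_iff] at *; omega)
      rw [NN_succ hL, NN_succ hL, hb, hb, add_zero, add_zero] at h2
      exact h2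
  have h2 : ∀ (k : ℕ) (y : ℤ), NN L ε (b, y + k) = NN L ε (b, y) := by
    intro k
    induction k with
    | zero => intro y; simp
    | succ k ih =>
      intro y
      rw [show y + ((k + 1 : ℕ) : ℤ) = (y + k) + 1 by push_cast; ring, h1, ih]
  rcases le_total y y' with h3 | h3
  · have := h2 (y' - y).toNat y
    rw [show y + (((y' - y).toNat : ℕ) : ℤ) = y' by omega] at this
    exact this.symm
  · have := h2 (y - y').toNat y'
    rw [show y' + (((y - y').toNat : ℕ) : ℤ) = y by omega] at this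
    exact this

theorem NN_add (ε ε' : ℤ × ℤ → ZMod 2) (p : ℤ × ℤ) :
    NN L (fun s => ε s + ε' s) p = NN L ε p + NN L ε' p := by
  unfold NN
  exact sum_add_distrib

theorem NN_zero_row {y : ℤ} (h : ∀ m, ε (m, y) = 0) (x : ℤ) : NN L ε (x, y) = 0 :=
  sum_eq_zero fun m _ => h m

theorem NN_left {x : ℤ} (h : x ≤ L) (y : ℤ) : NN L ε (x, y) = 0 := by
  unfold NN
  rw [Ico_eq_empty (by simp only; omega), sum_empty]

end potential

/-! ### rays -/

/-- The ray above `α`. -/
def upR (α p : ℤ × ℤ) : ZMod 2 := if p.1 = α.1 ∧ α.2 ≤ p.2 then 1 else 0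

/-- The ray below `α`. -/
def dnR (α p : ℤ × ℤ) : ZMod 2 := if p.1 = α.1 ∧ p.2 < α.2 then 1 else 0

/-- The ray on the right of `α`. -/
def rtR (α p : ℤ × ℤ) : ZMod 2 := if p.2 = α.2 ∧ α.1 ≤ p.1 then 1 else 0

theorem bd_upR {α s : ℤ × ℤ} (hα : Even (α.1 + α.2)) (hs : Even (s.1 + s.2)) :
    bd (upR α) s = dl α s := by
  obtain ⟨a1, a2⟩ := α
  obtain ⟨s1, s2⟩ := s
  rw [Int.even_iff] at hα hs
  simp only at hα hs
  simp only [bd, upR, dl, Prod.mk.injEq]
  by_cases h1 : s1 = a1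
  · have k1 : ¬ (s1 - 1 = a1 ∧ a2 ≤ s2) := by omega
    have k2 : ¬ (s1 - 1 = a1 ∧ a2 ≤ s2 - 1) := by omega
    rw [if_neg k1, if_neg k2]
    by_cases h2 : a2 ≤ s2 - 1
    · rw [if_pos ⟨h1, by omega⟩, if_pos ⟨h1, h2⟩, if_neg (by omega)]
      decide
    · by_cases h3 : s2 = a2
      · rw [if_pos ⟨h1, by omega⟩, if_neg (by omega), if_pos ⟨h1, h3⟩]
        decide
      · rw [if_neg (by omega), if_neg (by omega), if_neg (by omega)]
        decide
  · by_cases h2 : s1 - 1 = a1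
    · have k1 : ¬ (s1 = a1 ∧ a2 ≤ s2) := by omega
      have k2 : ¬ (s1 = a1 ∧ a2 ≤ s2 - 1) := by omega
      have k3 : ¬ (s1 = a1 ∧ s2 = a2) := by omega
      rw [if_neg k1, if_neg k2, if_neg k3]
      by_cases h3 : a2 ≤ s2 - 1
      · rw [if_pos ⟨h2, by omega⟩, if_pos ⟨h2, h3⟩]
        decide
      · rw [if_neg (by omega), if_neg (by omega)]
        decide
    · rw [if_neg (by omega), if_neg (by omega), if_neg (by omega), if_neg (by omega),
        if_neg (by omega)]
      decide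

theorem bd_dnR {α s : ℤ × ℤ} (hα : Even (α.1 + α.2)) (hs : Even (s.1 + s.2)) :
    bd (dnR α) s = dl α s := by
  obtain ⟨a1, a2⟩ := α
  obtain ⟨s1, s2⟩ := s
  rw [Int.even_iff] at hα hs
  simp only at hα hs
  simp only [bd, dnR, dl, Prod.mk.injEq]
  by_cases h1 : s1 = a1
  · have k1 : ¬ (s1 - 1 = a1 ∧ s2 < a2) := by omega
    have k2 : ¬ (s1 - 1 = a1 ∧ s2 - 1 < a2) := by omega
    rw [if_neg k1, if_neg k2]
    by_cases h2 : s2 < a2
    · rw [if_pos ⟨h1, h2⟩, if_pos ⟨h1, by omega⟩, if_neg (by omega)]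
      decide
    · by_cases h3 : s2 = a2
      · rw [if_neg (by omega), if_pos ⟨h1, by omega⟩, if_pos ⟨h1, h3⟩]
        decide
      · rw [if_neg (by omega), if_neg (by omega), if_neg (by omega)]
        decide
  · by_cases h2 : s1 - 1 = a1
    · have k1 : ¬ (s1 = a1 ∧ s2 < a2) := by omega
      have k2 : ¬ (s1 = a1 ∧ s2 - 1 < a2) := by omega
      have k3 : ¬ (s1 = a1 ∧ s2 = a2) := by omega
      rw [if_neg k1, if_neg k2, if_neg k3]
      by_cases h3 : s2 < a2
      · rw [if_pos ⟨h2, h3⟩, if_pos ⟨h2, by omega⟩]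
        decide
      · rw [if_neg (by omega), if_neg (by omega)]
        decide
    · rw [if_neg (by omega), if_neg (by omega), if_neg (by omega), if_neg (by omega),
        if_neg (by omega)]
      decide

theorem bd_rtR {α s : ℤ × ℤ} (hα : Even (α.1 + α.2)) (hs : Even (s.1 + s.2)) :
    bd (rtR α) s = dl α s := by
  obtain ⟨a1, a2⟩ := α
  obtain ⟨s1, s2⟩ := s
  rw [Int.even_iff] at hα hs
  simp only at hα hs
  simp only [bd, rtR, dl, Prod.mk.injEq]
  by_cases h1 : s2 = a2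
  · have k1 : ¬ (s2 - 1 = a2 ∧ a1 ≤ s1) := by omega
    have k2 : ¬ (s2 - 1 = a2 ∧ a1 ≤ s1 - 1) := by omega
    rw [if_neg k1, if_neg k2]
    by_cases h2 : a1 ≤ s1 - 1
    · rw [if_pos ⟨h1, by omega⟩, if_pos ⟨h1, h2⟩, if_neg (by omega)]
      decide
    · by_cases h3 : s1 = a1
      · rw [if_pos ⟨h1, by omega⟩, if_neg (by omega), if_pos ⟨h3, h1⟩]
        decide
      · rw [if_neg (by omega), if_neg (by omega), if_neg (by omega)]
        decide
  · by_cases h2 : s2 - 1 = a2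
    · have k1 : ¬ (s2 = a2 ∧ a1 ≤ s1) := by omega
      have k2 : ¬ (s2 = a2 ∧ a1 ≤ s1 - 1) := by omega
      have k3 : ¬ (s1 = a1 ∧ s2 = a2) := by omega
      rw [if_neg k1, if_neg k2, if_neg k3]
      by_cases h3 : a1 ≤ s1 - 1
      · rw [if_pos ⟨h2, by omega⟩, if_pos ⟨h2, h3⟩]
        decide
      · rw [if_neg (by omega), if_neg (by omega)]
        decide
    · rw [if_neg (by omega), if_neg (by omega), if_neg (by omega), if_neg (by omega),
        if_neg (by omega)]
      decide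

theorem NN_upR {L : ℤ} {α : ℤ × ℤ} (hL : L ≤ α.1) (x y : ℤ) :
    NN L (upR α) (x, y) = if α.1 < x ∧ α.2 ≤ y then 1 else 0 := by
  unfold NN upR
  by_cases h : α.2 ≤ y
  · simp only [h, and_true]
    rw [sum_ite_eq']
    refine if_congr ?_ rfl rfl
    rw [mem_Ico]
    omega
  · simp only [h, and_false, if_false]
    exact sum_const_zero

theorem NN_dnR {L : ℤ} {α : ℤ × ℤ} (hL : L ≤ α.1) (x y : ℤ) :
    NN L (dnR α) (x, y) = if α.1 < x ∧ y < α.2 then 1 else 0 := by
  unfold NN dnR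
  by_cases h : y < α.2
  · simp only [h, and_true]
    rw [sum_ite_eq']
    refine if_congr ?_ rfl rfl
    rw [mem_Ico]
    omega
  · simp only [h, and_false, if_false]
    exact sum_const_zero

theorem NN_rtR {L : ℤ} {α : ℤ × ℤ} {x : ℤ} (hx : x ≤ α.1) (y : ℤ) :
    NN L (rtR α) (x, y) = 0 := by
  unfold NN rtR
  refine sum_eq_zero fun m hm => ?_
  rw [mem_Ico] at hm
  rw [if_neg]
  simp only at hm ⊢
  omega

end Vale.Agent.P167.H640.Pl
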