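import Vale.Agent.P167.H364.NearD
import Vale.Agent.P167.H713.Q.InpAll

/-!
# P167, `0 < q < 4`, [GEO]: the neighbourhood of the target
-/

set_option autoImplicit false

namespace Vale.Agent.P167.H640

open Filter Topology Set
open Vale.Agent.P153.M1 (Expl)
open Vale.Agent.P153.R2
open Vale.Agent.P167.QT
open Vale.Agent.P167.E6 (Medial pt region edges)
open Vale.Agent.P167.E2 (len nu)
open Vale.Agent.P167.H411 (exn Set6)
open Vale.Agent.P167.H192 (ro)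
open Vale.Agent.P167.H718 (Dq)
open Vale.Agent.P167.H72.SD (dk om Wf)
open Vale.Agent.P167.H446.G
open Vale.Agent.P167.H918 (Loc)
open Vale.Agent.P167.H364 (NrN NrA)
open Vale.Agent.P167.H634 (SqD)
open Vale.Agent.P167.H397.K (frm cst_all)
open Vale.Agent.P167.SG (Bf)
open Vale.Agent.P167.H713.Q (frm_sq not_bad dist_D del_dl)

/-! ### Lengths -/

theorem dl_mq_gt {δ : ℕ → ℝ} (hδ : ∀ n, 0 < δ n) (h0 : Tendsto δ atTop (𝓝 0)) {L s : ℝ}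
    (hs : 0 < s) : ∀ᶠ n in atTop, L - s < H446.G.dl (δ n) * (mq L s (δ n) : ℝ) := by
  have h1 := (tendsto_dlNn hδ h0 hs).const_mul (Ku L s : ℝ)
  have h2 := lt_Ku (L := L) hs
  filter_upwards [h1.eventually (lt_mem_nhds h2)] with n hn
  have hdl := dl_pos (hδ n)
  have e : (Ku L s : ℝ) * H446.G.Nn s (δ n) ≤ (mq L s (δ n) : ℝ) := by
    unfold mq
    push_cast
    have : (0 : ℝ) ≤ ((H446.G.Nn s (δ n) / 2 : ℕ) : ℝ) := by positivity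
    have h3 : (Ku L s : ℝ) * H446.G.Nn s (δ n) = ((Ku L s * H446.G.Nn s (δ n) : ℕ) : ℝ) := by push_cast; rfl
    linarith
  calc L - s < (Ku L s : ℝ) * (H446.G.dl (δ n) * H446.G.Nn s (δ n)) := hn
    _ = H446.G.dl (δ n) * ((Ku L s : ℝ) * H446.G.Nn s (δ n)) := by ring
    _ ≤ _ := mul_le_mul_of_nonneg_left e hdl.le

theorem dl_Ku_gt {δ : ℕ → ℝ} (hδ : ∀ n, 0 < δ n) (h0 : Tendsto δ atTop (𝓝 0)) {L s : ℝ}
    (hs : 0 < s) : ∀ᶠ n in atTop,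
      L - s < H446.G.dl (δ n) * ((Ku L s : ℝ) * (H446.G.Nn s (δ n) : ℝ)) := by
  have h1 := (tendsto_dlNn hδ h0 hs).const_mul (Ku L s : ℝ)
  filter_upwards [h1.eventually (lt_mem_nhds (lt_Ku (L := L) hs))] with n hn
  calc L - s < (Ku L s : ℝ) * (H446.G.dl (δ n) * H446.G.Nn s (δ n)) := hn
    _ = _ := by ring

theorem dl_mq_le {δ L s : ℝ} (hδ : 0 < δ) (hs : 0 < s) (hL : 0 ≤ L) :
    H446.G.dl δ * (mq L s δ : ℝ) ≤ L + s := dist_D hδ hs hL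

theorem dl_mb_le {δ m : ℝ} (hδ : 0 < δ) : H446.G.dl δ * ((mb m δ : ℤ) : ℝ) ≤ m / 8 := by
  have hdl := dl_pos hδ
  have h := Int.floor_le (m / (8 * H446.G.dl δ))
  rw [le_div_iff₀ (by positivity)] at h
  unfold mb
  linarith

theorem dl_mb_gt {δ m : ℝ} (hδ : 0 < δ) : m / 8 - H446.G.dl δ < H446.G.dl δ * ((mb m δ : ℤ) : ℝ) := by
  have hdl := dl_pos hδ
  have h := Int.lt_floor_add_one (m / (8 * H446.G.dl δ))
  rw [div_lt_iff₀ (by positivity)] at h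
  unfold mb
  linarith

theorem int_le_of {d : ℝ} (hd : 0 < d) {a b : ℤ} (h : d * (a : ℝ) < d * ((b : ℤ) : ℝ) + d) :
    a ≤ b := by
  have h1 : d * (a : ℝ) < d * ((b : ℝ) + 1) := by linarith
  have h2 := lt_of_mul_lt_mul_left h1 hd.le
  have h3 : (a : ℝ) < ((b + 1 : ℤ) : ℝ) := by push_cast; exact h2
  have := Int.cast_lt.1 h3
  omega

/-- The squares of a box are in the flat neighbourhood. -/
theorem frm_box' {δ : ℝ} (hδ : 0 < δ) {v v₁ : ℤ × ℤ} {r : ℝ} {m : ℤ}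
    (h1 : |v.1 - v₁.1| + 1 ≤ m) (h2 : |v.2 - v₁.2| + 1 ≤ m) (h : H446.G.dl δ * (m : ℝ) < r) :
    ∀ z ∈ SqD δ v, frm δ v₁ z ∈ Bf 0 r := by
  intro z hz
  have hdl := dl_pos hδ
  obtain ⟨⟨z1, z2⟩, z3, z4⟩ := frm_sq hδ (v₁ := v₁) hz
  have key : ∀ (a b : ℤ) (x : ℝ), |a - b| + 1 ≤ m → H446.G.dl δ * ((a : ℝ) - b) ≤ x →
      x ≤ H446.G.dl δ * ((a : ℝ) - b + 1) → |x| < r := by
    intro a b x h3 h4 h5
    have h6 := neg_abs_le (a - b)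
    have h7 := le_abs_self (a - b)
    have h8 : ((-m : ℤ) : ℝ) ≤ ((a - b : ℤ) : ℝ) := by exact_mod_cast (by omega : -m ≤ a - b)
    have h9 : ((a - b + 1 : ℤ) : ℝ) ≤ ((m : ℤ) : ℝ) := by exact_mod_cast (by omega : a - b + 1 ≤ m)
    push_cast at h8 h9
    have ha := mul_le_mul_of_nonneg_left h8 hdl.le
    have hb := mul_le_mul_of_nonneg_left h9 hdl.le
    rw [abs_lt]
    constructor <;> linarith
  refine ⟨?_, key _ _ _ h2 z3 z4⟩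
  rw [sub_zero]
  exact key _ _ _ h1 z1 z2


/-- The lengths in squares, one mesh. -/
structure Lens (C : Cst) (δ s : ℝ) : Prop where
  hδ : 0 < δ
  hs : 0 < s
  m0 : 0 < C.m
  Ld0 : 8 * C.m ≤ C.Ld
  Lc0 : C.Ld + 8 * C.m ≤ C.Lc
  sm : s ≤ C.m / 2
  d1 : δ < s / 64
  d2 : δ < C.m / 64
  gd : C.Ld - s < H446.G.dl δ * (mq C.Ld s δ : ℝ)
  gc : C.Lc - s < H446.G.dl δ * (mq C.Lc s δ : ℝ)
  gm : C.m - s < H446.G.dl δ * ((Ku C.m s : ℝ) * (H446.G.Nn s δ : ℝ))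

namespace Lens

variable {C : Cst} {δ s : ℝ} (L : Lens C δ s)
include L

theorem dl0 : 0 < H446.G.dl δ := dl_pos L.hδ

theorem dl_le : H446.G.dl δ ≤ δ := by
  have hdl := L.dl0
  unfold H446.G.dl
  refine div_le_self L.hδ.le ?_
  rw [Real.one_le_sqrt]
  norm_num

theorem mb0 : 0 ≤ mb C.m δ := by
  refine int_le_of L.dl0 ?_
  have h1 := dl_mb_gt L.hδ (m := C.m)
  have h2 := L.dl_le
  have h3 := L.d2
  simp only [Int.cast_zero, mul_zero]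
  linarith [L.m0, L.dl0]

/-- the total size in squares -/
theorem sz {x : ℤ} (hx : x ≤ (mq C.Lc s δ : ℤ) + mb C.m δ + 16) :
    H446.G.dl δ * (x : ℝ) ≤ 2 * C.Lc + C.m := by
  have hx' : (x : ℝ) ≤ (mq C.Lc s δ : ℝ) + ((mb C.m δ : ℤ) : ℝ) + 16 := by exact_mod_cast hx
  have hLc : 0 ≤ C.Lc := by linarith [L.Lc0, L.Ld0, L.m0]
  have h1 := mul_le_mul_of_nonneg_left hx' L.dl0.le
  rw [mul_add, mul_add] at h1
  have h2 := dl_mq_le L.hδ L.hs hLc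
  have h3 := dl_mb_le L.hδ (m := C.m)
  have h4 := L.dl_le
  have h5 := L.d2
  have h6 := L.sm
  linarith [L.m0, L.Lc0, L.Ld0]

theorem szδ {x : ℤ} (hx0 : 0 ≤ x) (hx : x ≤ (mq C.Lc s δ : ℤ) + mb C.m δ + 16) :
    (x : ℝ) * δ ≤ 4 * C.Lc + 2 * C.m := by
  have h1 := L.sz hx
  have h2 : (0 : ℝ) ≤ (x : ℝ) := by exact_mod_cast hx0
  have h3 := mul_le_mul_of_nonneg_left (del_dl L.hδ) h2
  have h4 : (x : ℝ) * (2 * H446.G.dl δ) = 2 * (H446.G.dl δ * (x : ℝ)) := by ring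
  linarith

theorem Kg {K : ℤ} (s4 : s ≤ C.m / (16 * (|(K : ℝ)| + 1))) :
    K * H446.G.Nn s δ ≤ mb C.m δ := by
  refine int_le_of L.dl0 ?_
  push_cast
  have hdl := L.dl0
  have hN1 : H446.G.dl δ * (H446.G.Nn s δ : ℝ) ≤ s := Nn_le L.hs L.hδ
  have h3 : 0 ≤ H446.G.dl δ * (H446.G.Nn s δ : ℝ) := by positivity
  have h1 : (K : ℝ) * (H446.G.dl δ * (H446.G.Nn s δ : ℝ)) ≤ |(K : ℝ)| * s :=
    calc _ ≤ |(K : ℝ)| * (H446.G.dl δ * (H446.G.Nn s δ : ℝ)) :=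
        mul_le_mul_of_nonneg_right (le_abs_self _) h3
      _ ≤ _ := mul_le_mul_of_nonneg_left hN1 (abs_nonneg _)
  have h4 : |(K : ℝ)| * s ≤ C.m / 16 := by
    have h5 : 0 < 16 * (|(K : ℝ)| + 1) := by positivity
    rw [le_div_iff₀ h5] at s4
    have := L.hs
    have h6 : s * (16 * (|(K : ℝ)| + 1)) = 16 * (|(K : ℝ)| * s) + 16 * s := by ring
    linarith
  have e : H446.G.dl δ * ((K : ℝ) * (H446.G.Nn s δ : ℝ)) =
      (K : ℝ) * (H446.G.dl δ * (H446.G.Nn s δ : ℝ)) := by ring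
  rw [e]
  have h7 := dl_mb_gt L.hδ (m := C.m)
  have h8 := L.m0
  linarith

theorem mf : mb C.m δ + 1 ≤ (Ku C.m s : ℤ) * H446.G.Nn s δ := by
  refine int_le_of L.dl0 ?_
  push_cast
  have h1 := dl_mb_le L.hδ (m := C.m)
  rw [mul_add, mul_one]
  linarith [L.gm, L.sm, L.m0, L.dl0, L.dl_le, L.d2]

theorem gl : 8 * mb C.m δ ≤ mq C.Ld s δ := by
  refine int_le_of L.dl0 ?_
  push_cast
  have e : H446.G.dl δ * (8 * ((mb C.m δ : ℤ) : ℝ)) =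
      8 * (H446.G.dl δ * ((mb C.m δ : ℤ) : ℝ)) := by ring
  rw [e]
  have h1 := dl_mb_le L.hδ (m := C.m)
  linarith [L.gd, L.Ld0, L.sm, L.m0, L.dl0]

theorem lc : (mq C.Ld s δ : ℤ) + 8 * mb C.m δ ≤ mq C.Lc s δ := by
  refine int_le_of L.dl0 ?_
  push_cast
  have e : H446.G.dl δ * ((mq C.Ld s δ : ℝ) + 8 * ((mb C.m δ : ℤ) : ℝ)) =
      H446.G.dl δ * (mq C.Ld s δ : ℝ) + 8 * (H446.G.dl δ * ((mb C.m δ : ℤ) : ℝ)) := by ring
  rw [e]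
  have h1 := dl_mb_le L.hδ (m := C.m)
  have hLd : 0 ≤ C.Ld := by linarith [L.Ld0, L.m0]
  have h2 := dl_mq_le L.hδ L.hs hLd
  linarith [L.gc, L.Lc0, L.sm, L.m0, L.dl0]

theorem cg : (mq C.Lc s δ : ℤ) ≤ ⌈32 * C.Lc / C.m⌉ * mb C.m δ := by
  refine int_le_of L.dl0 ?_
  push_cast
  have hm := L.m0
  have hLc : 0 < C.Lc := by linarith [L.Lc0, L.Ld0, L.m0]
  have h1 := Int.le_ceil (32 * C.Lc / C.m)
  have h2 : 0 < 32 * C.Lc / C.m := by positivity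
  have h3 : C.m / 16 ≤ H446.G.dl δ * ((mb C.m δ : ℤ) : ℝ) := by
    have := dl_mb_gt L.hδ (m := C.m)
    linarith [L.dl_le, L.d2]
  have h4 : 2 * C.Lc ≤ (⌈32 * C.Lc / C.m⌉ : ℝ) * (H446.G.dl δ * ((mb C.m δ : ℤ) : ℝ)) := by
    calc 2 * C.Lc = 32 * C.Lc / C.m * (C.m / 16) := by field_simp; ring
      _ ≤ (⌈32 * C.Lc / C.m⌉ : ℝ) * (H446.G.dl δ * ((mb C.m δ : ℤ) : ℝ)) :=
        mul_le_mul h1 h3 (by positivity) (h2.le.trans h1)
  have e : H446.G.dl δ * ((⌈32 * C.Lc / C.m⌉ : ℝ) * ((mb C.m δ : ℤ) : ℝ)) =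
      (⌈32 * C.Lc / C.m⌉ : ℝ) * (H446.G.dl δ * ((mb C.m δ : ℤ) : ℝ)) := by ring
  rw [e]
  have h5 := dl_mq_le L.hδ L.hs hLc.le
  linarith [L.sm, L.dl0, L.Lc0, L.Ld0]

end Lens

variable {Φ : (ℝ × ℝ) ≃ₜ (ℝ × ℝ)} {ψ : ℂ → ℂ} {δ : ℕ → ℝ} {N k : ℕ → ℕ}
  {p : ∀ n, ZMod (N n) → ℤ × ℤ} {S : ℕ → Finset (ℤ × ℤ)} {ψn : ℕ → ℂ → ℂ}

/-- **The neighbourhood of the target.** -/
theorem near_all (H : Set6 Φ ψ δ N k p S ψn) (hK : QE.Stair 3 Φ δ N k p S) {T R : ℝ}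
    (hT : 0 ≤ T) (hR : 0 ≤ R) : ∃ ρ₀ : ℝ, 0 < ρ₀ ∧ ∀ C : Cst, C.T = T → C.R = R → C.Sm ρ₀ →
      ∃ κ : ℤ, ∀ K : ℤ, ∀ r : ℝ, 0 < r → ∃ s₀ : ℝ, 0 < s₀ ∧ ∀ s : ℝ, 0 < s → s ≤ s₀ →
        ∀ᶠ n in atTop, NrN C (p n) (k n) (S n) (δ n) s κ K ∧
          ∀ (A : Hst) (j : ℕ), Bef (exn δ N k p S ψn n) C.T C.R A j →
            NrA C (p n) (k n) (S n) (δ n) r s A j := by
  have hK' := hK
  obtain ⟨r', hr', hst⟩ := hK'
  obtain ⟨ρ₁, hρ₁, hloc⟩ := H918.loc_of H.appr hr' hst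
  obtain ⟨ρ₂, hρ₂, hfar⟩ := H918.far_pt H hT hR
  obtain ⟨ρ₃, hρ₃, hmet⟩ := H72.SD.lo_met H hT hR
  set X1 : ℝ := 4 * (R + 1) + 16 * (T + 1) with hX1
  obtain ⟨rf, cg, X3, b1, b2, b3, b4, hflt⟩ := H918.flt_row H hK (X1 := X1) (by positivity)
    (r₁ := 1) one_pos
  refine ⟨min (min (ρ₁ / 8) (ρ₂ / 8)) (min (ρ₃ / 8) (rf / 8)), by positivity,
    fun C hCT hCR hC => ?_⟩
  obtain ⟨c1, c2, c3, c4⟩ := hC
  have c5 := c4.trans ((min_le_left _ _).trans (min_le_left _ _))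
  have c6 := c4.trans ((min_le_left _ _).trans (min_le_right _ _))
  have c7 := c4.trans ((min_le_right _ _).trans (min_le_left _ _))
  have c8 := c4.trans ((min_le_right _ _).trans (min_le_right _ _))
  have hLd : 0 < C.Ld := by linarith
  have hLc : 0 < C.Lc := by linarith
  refine ⟨⌈32 * C.Lc / C.m⌉, fun K r hr => ?_⟩
  refine ⟨min (min (C.m / 2) (C.m / (16 * (|(K : ℝ)| + 1)))) (min (r / 7200) (rf / 16000)),
    by positivity, fun s hs hs₀ => ?_⟩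
  have s1 : s ≤ C.m / 2 := hs₀.trans ((min_le_left _ _).trans (min_le_left _ _))
  have s4 : s ≤ C.m / (16 * (|(K : ℝ)| + 1)) :=
    hs₀.trans ((min_le_left _ _).trans (min_le_right _ _))
  have s2 : s ≤ r / 7200 := hs₀.trans ((min_le_right _ _).trans (min_le_left _ _))
  have s3 : s ≤ rf / 16000 := hs₀.trans ((min_le_right _ _).trans (min_le_right _ _))
  have hδ0 : ∀ n, 0 < δ n := fun n => (H.appr.1 n).1
  have hNe := (tendsto_Nn hδ0 H.appr.2.1 hs).eventually_ge_atTop 16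
  have hde := (Metric.tendsto_nhds.1 H.appr.2.1) (min (s / 64) (C.m / 64)) (by positivity)
  filter_upwards [hloc, hfar, hmet, hflt, H653.St.hst_st H hT hR one_pos,
    H756.drv H hT hR zero_lt_one, hNe, hde, dl_mq_gt hδ0 H.appr.2.1 (L := C.Ld) hs,
    dl_mq_gt hδ0 H.appr.2.1 (L := C.Lc) hs, dl_Ku_gt hδ0 H.appr.2.1 (L := C.m) hs]
    with n g1 g2 g3 g4 g5 g6 g7 g8 g9 g10 g11
  have hδ := hδ0 n
  rw [dist_zero_right, Real.norm_of_nonneg hδ.le] at g8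
  have L : Lens C (δ n) s := ⟨hδ, hs, c1, c2, c3, s1, g8.trans_le (min_le_left _ _),
    g8.trans_le (min_le_right _ _), g9, g10, g11⟩
  have mb0 := L.mb0
  obtain ⟨M, HL⟩ := g1
  refine ⟨⟨⟨M, _, HL, ?_⟩, g7, L.Kg s4, L.gl, L.lc, L.cg, L.mf, (H.appr.1 n).2.2.1⟩, ?_⟩
  · -- loc
    have hsz1 := L.szδ (x := (mq C.Lc s (δ n) : ℤ) + mb C.m (δ n) + 16) (by omega) le_rfl
    have : (mq C.Lc s (δ n) : ℤ) + mb C.m (δ n) + 16 ≤ ⌊ρ₁ / δ n⌋ := by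
      rw [Int.le_floor, le_div_iff₀ hδ]
      linarith
    omega
  rintro A j hB
  rw [hCT, hCR] at hB
  have hB2 := hB
  obtain ⟨hA, hj, hb⟩ := hB
  have hA' : A ⊆ edges (S n) := (H411.mem_Qc (p := p n) (k := k n) (δ := δ n)).1 hA
  refine ⟨hA', ?_, ?_⟩
  · intro v v1 v2 v3 v4
    obtain ⟨m', hm'⟩ : ∃ m' : ℤ, m' = (mq C.Lc s (δ n) : ℤ) + mb C.m (δ n) + 1 := ⟨_, rfl⟩
    have w1 : |v.1 - (ro (p n (k n))).1| + 1 ≤ m' := by
      have : |v.1 - (ro (p n (k n))).1| ≤ m' - 1 := abs_le.2 ⟨by omega, by omega⟩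
      omega
    have w2 : |v.2 - (ro (p n (k n))).2| + 1 ≤ m' := by
      have : |v.2 - (ro (p n (k n))).2| ≤ m' - 1 := abs_le.2 ⟨by omega, by omega⟩
      omega
    have hm2 := L.szδ (x := m') (by omega) (by omega)
    refine ⟨?_, ?_⟩
    · obtain ⟨x, y⟩ := v
      have hfar' : ∀ q ∈ H161.Rd (p n) (k n) (S n) A j, ⌈ρ₂ / δ n⌉ ≤ nm (q - ro (p n (k n))) :=
        fun q hq => Int.ceil_le.2 (g2 A hA j hj hb q hq)
      have f1 : m' ≤ ⌊ρ₁ / δ n⌋ := by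
        rw [Int.le_floor, le_div_iff₀ hδ]
        linarith
      have f2 : m' < ⌈ρ₂ / δ n⌉ := by
        rw [Int.lt_ceil, lt_div_iff₀ hδ]
        linarith
      simp only at w1 w2
      exact (H918.mem_dk_iff HL hfar' (by linarith) (by linarith) (by linarith) (by linarith)).2 v3
    · intro c
      obtain ⟨Gt, x₁, hF⟩ := g4 (ro (p n (k n))) rfl
      obtain ⟨-, hD', -, -⟩ := g5 A j ⟨hA, hj, hb⟩ (ro (p n (k n)))
      obtain ⟨hdr, -⟩ := g6 A hA j hj hb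
      obtain ⟨k1, k2, -, -, -, k6⟩ := cst_all (a := 100) (s := s) (r := r) (by norm_num) hδ
        (by linarith [L.d1]) (by linarith)
      have k6' := k6 rf (by linarith)
      refine not_bad hF hdr (by rw [hX1]; linarith) (by rw [hX1]; nlinarith) hδ k1 k2
        (v₁ := ro (p n (k n))) hD' (by linarith [L.dl_le]) k6' ?_
      simp only [sub_self, Int.cast_zero, mul_zero]
      refine frm_box' hδ w1 w2 ?_
      have := L.sz (x := m') (by omega)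
      linarith
  · refine g3 A j hB2 _ ?_
    have e1 : ((k n : ℝ) - ((k n - mq C.Lc s (δ n) - 1 : ℕ) : ℝ)) ≤
        (((mq C.Lc s (δ n) : ℤ) + 1 : ℤ) : ℝ) := by
      have : (k n : ℤ) - ((k n - mq C.Lc s (δ n) - 1 : ℕ) : ℤ) ≤
          (mq C.Lc s (δ n) : ℤ) + 1 := by omega
      exact_mod_cast this
    have e2 := L.szδ (x := (mq C.Lc s (δ n) : ℤ) + 1) (by omega) (by omega)
    have e3 := mul_le_mul_of_nonneg_right e1 hδ.le
    linarith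

end Vale.Agent.P167.H640
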